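import Vale.Agent.P065.UB.H759.U2Defs

/-! P065, upper bound, line P: the Prop `StGd` (few incidences are not good). -/

set_option autoImplicit false

namespace Vale.Agent.P065.UB.H936

open Finset Vale.Agent.P065.UB Vale.Agent.P065.UB.H759

open Classical in
/-- double counting of the incidences with the points outside `G` -/
lemma sum_not {ι : Type} (Q : Finset Pt) (W : Finset ι) (Y : ι → Finset Pt)
    (hY : ∀ w ∈ W, Y w ⊆ Q) (G : Finset Pt) :
    ∑ w ∈ W, (#{p ∈ Y w | p ∉ G} : ℝ) = ∑ p ∈ Q with p ∉ G, (#{w ∈ W | p ∈ Y w} : ℝ) := by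
  have h1 : ∀ w ∈ W, (#{p ∈ Y w | p ∉ G} : ℝ) =
      ∑ p ∈ Q with p ∉ G, if p ∈ Y w then (1 : ℝ) else 0 := by
    intro w hw
    rw [← sum_filter, sum_const, nsmul_eq_mul, mul_one]
    congr 2
    ext p
    simp only [mem_filter]
    constructor
    · rintro ⟨h1, h2⟩
      exact ⟨⟨hY w hw h1, h2⟩, h1⟩
    · rintro ⟨⟨_, h2⟩, h1⟩
      exact ⟨h1, h2⟩
  rw [sum_congr rfl h1, sum_comm]
  refine sum_congr rfl fun p _ => ?_
  rw [← sum_filter, sum_const, nsmul_eq_mul, mul_one]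

open Classical in
/-- the active points of poor squares are few -/
lemma card_poor {ι : Type} (K L lam δ : ℝ) (hL : 0 ≤ L) (Q : Finset Pt) (W : Finset ι)
    (Y : ι → Finset Pt) :
    L * #{p ∈ Act K lam Q W Y | p ∉ Gd K L lam δ Q W Y} ≤ (#Q : ℝ) := by
  set A := Act K lam Q W Y with hA
  set P := {p ∈ A | p ∉ Gd K L lam δ Q W Y} with hP
  set T := P.image (sqc δ) with hT
  have h1 : #P = ∑ σ ∈ T, #{p ∈ P | sqc δ p = σ} :=
    card_eq_sum_card_fiberwise fun p hp => mem_image_of_mem _ hp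
  have h2 : ∀ σ ∈ T, L * (#{p ∈ P | sqc δ p = σ} : ℝ) ≤ #{p ∈ Q | sqc δ p = σ} := by
    intro σ hσ
    obtain ⟨p, hp, rfl⟩ := mem_image.1 hσ
    obtain ⟨hpA, hpG⟩ := mem_filter.1 hp
    have h3 : ¬ ((#{p' ∈ Q | sqc δ p' = sqc δ p} : ℝ) ≤
        L * #{p' ∈ Act K lam Q W Y | sqc δ p' = sqc δ p}) := by
      intro h4
      exact hpG (by
        rw [Gd, mem_filter]
        exact ⟨hpA, h4⟩)
    rw [not_le] at h3
    refine le_trans (mul_le_mul_of_nonneg_left ?_ hL) h3.le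
    exact_mod_cast card_le_card (filter_subset_filter _ (filter_subset _ _))
  have h3 : ∑ σ ∈ T, #{p ∈ Q | sqc δ p = σ} ≤ #Q := by
    rw [sum_card_fiberwise_eq_card_filter]
    exact card_filter_le _ _
  calc L * (#P : ℝ) = ∑ σ ∈ T, L * (#{p ∈ P | sqc δ p = σ} : ℝ) := by
        rw [h1]; push_cast; rw [mul_sum]
    _ ≤ ∑ σ ∈ T, (#{p ∈ Q | sqc δ p = σ} : ℝ) := sum_le_sum h2
    _ ≤ #Q := by exact_mod_cast h3

theorem stGd : StGd := by
  refine ⟨7, fun C0 hC0 K L lam δ Q ι W a b Y J h => ?_⟩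
  classical
  have hK : 2 ≤ K := h.two
  have hK0 : 0 < K := by linarith
  have hK7 : K ^ 7 ≤ L := le_trans (pow_le_pow_right₀ (by linarith) hC0) h.KL
  have hL0 : 0 < L := lt_of_lt_of_le (by positivity) hK7
  have hlam : 0 < lam := lt_of_lt_of_le (by positivity) h.Llam
  have hN : (0 : ℝ) ≤ #Q := Nat.cast_nonneg _
  have hpoor := card_poor K L lam δ hL0.le Q W Y
  have h1 : ∀ p ∈ Q, (#{w ∈ W | p ∈ Y w} : ℝ) ≤
      lam / K ^ 6 + if p ∈ Act K lam Q W Y then K * lam else 0 := by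
    intro p hp
    by_cases hA : p ∈ Act K lam Q W Y
    · rw [if_pos hA]
      have := h.touch p hp
      have h2 : 0 ≤ lam / K ^ 6 := by positivity
      linarith
    · rw [if_neg hA, add_zero, le_div_iff₀ (by positivity)]
      have h3 : ¬ (lam ≤ K ^ 6 * #{w ∈ W | p ∈ Y w}) := by
        intro h4
        exact hA (by rw [Act, mem_filter]; exact ⟨hp, h4⟩)
      rw [not_le] at h3
      linarith
  have h2 : ∑ w ∈ W, (#{p ∈ Y w | p ∉ Gd K L lam δ Q W Y} : ℝ) ≤
      lam / K ^ 6 * #Q + K * lam * #{p ∈ Act K lam Q W Y | p ∉ Gd K L lam δ Q W Y} := by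
    rw [sum_not Q W Y h.subY]
    refine le_trans (sum_le_sum fun p hp => h1 p (mem_filter.1 hp).1) ?_
    rw [sum_add_distrib, sum_const, nsmul_eq_mul, ← sum_filter, sum_const, nsmul_eq_mul]
    refine add_le_add ?_ ?_
    · rw [mul_comm]
      refine mul_le_mul_of_nonneg_left ?_ (by positivity)
      exact_mod_cast card_filter_le _ _
    · rw [mul_comm]
      refine mul_le_mul_of_nonneg_left ?_ (by positivity)
      refine Nat.cast_le.2 (card_le_card ?_)
      intro p hp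
      rw [mem_filter, mem_filter] at hp
      exact mem_filter.2 ⟨hp.2, hp.1.2⟩
  have h3 : K ^ 5 * (lam / K ^ 6 * #Q) ≤ lam * #Q / 2 := by
    have e1 : K ^ 5 * (lam / K ^ 6 * #Q) = lam * #Q / K := by
      field_simp
    rw [e1]
    exact div_le_div_of_nonneg_left (by positivity) (by norm_num) hK
  have h4 : K ^ 5 * (K * lam * #{p ∈ Act K lam Q W Y | p ∉ Gd K L lam δ Q W Y}) ≤
      lam * #Q / 2 := by
    set X : ℝ := (#{p ∈ Act K lam Q W Y | p ∉ Gd K L lam δ Q W Y} : ℝ) with hX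
    have hX0 : 0 ≤ X := Nat.cast_nonneg _
    have e1 : K ^ 7 * X ≤ #Q := (mul_le_mul_of_nonneg_right hK7 hX0).trans hpoor
    have e2 : 2 * (K ^ 6 * X) ≤ K ^ 7 * X := by
      have : K ^ 7 * X = K * (K ^ 6 * X) := by ring
      rw [this]
      exact mul_le_mul_of_nonneg_right hK (by positivity)
    have e3 : K ^ 5 * (K * lam * X) = lam * (K ^ 6 * X) := by ring
    rw [e3]
    have e4 : K ^ 6 * X ≤ #Q / 2 := by linarith
    calc lam * (K ^ 6 * X) ≤ lam * (#Q / 2) := mul_le_mul_of_nonneg_left e4 hlam.le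
      _ = lam * #Q / 2 := by ring
  calc K ^ 5 * ∑ w ∈ W, (#{p ∈ Y w | p ∉ Gd K L lam δ Q W Y} : ℝ)
      ≤ K ^ 5 * (lam / K ^ 6 * #Q +
        K * lam * #{p ∈ Act K lam Q W Y | p ∉ Gd K L lam δ Q W Y}) :=
        mul_le_mul_of_nonneg_left h2 (by positivity)
    _ ≤ lam * #Q := by rw [mul_add]; linarith

end Vale.Agent.P065.UB.H936
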